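import Vale.Agent.P219.Bdl.B15

namespace Vale.Agent.Results.P219.CartanHadamardQ1

open Vale.Agent.P219.Co

/-- The generalized Cartan-Hadamard conjecture: all dimensions `n ≥ 2`, all `K ≤ 0`, with the
equality case. -/
theorem result {n : ℕ} (hn : 2 ≤ n) {K : ℝ} (hK : K ≤ 0)
    (M : RiemMetric n) (hM : GeodesicallyComplete M) (hs : SecLE M K) :
    IsoperimetricIneq M K ∧
      ∀ (D : SmoothDomain n) (r : ℝ), 0 ≤ r →
        riemVol M D.carrier = ENNReal.ofReal (modelVol n K r) →
        riemArea M D = ENNReal.ofReal (modelArea n K r) → IsometricToBallK M K D r :=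
  cartanHadamard_q1 hn hK M hM hs

end Vale.Agent.Results.P219.CartanHadamardQ1
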